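import Vale.Agent.P269C.Defs
import Vale.Agent.P273SD.Fh

/-!
P269, block C: coordinates on the fibres, derivatives, isomorphisms of fibres.
-/

noncomputable section

namespace Vale.Agent.P269CV

open Set Filter Topology Asymptotics Vale.Agent.P269C Vale.Agent.P273.H183 Vale.Agent.P272.K
open Vale.Agent.P273SD (HolF Sm Mod Pc FIso exists_mod node_of_not_sm holF_br ev_br Pc_self
  ev_back fh_smooth)
open Vale.Agent.P273.H948 (Emap)

variable {L : Type} {m m' : ℕ} {C : Fam L m} {p : C.X} {f g z w : C.X → ℂ}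

theorem fh_iff_sd : FH C f p ↔ P273SD.FH C (C.π p) f p := Iff.rfl

theorem ev_self {P : C.X → Prop} (h : ∀ᶠ q in nf C p, P q) : P p :=
  h.self_of_nhdsWithin (show p ∈ C.fib (C.π p) from rfl)

theorem ev_fib : ∀ᶠ q in nf C p, C.π q = C.π p := self_mem_nhdsWithin

theorem ev_ev {P : C.X → Prop} (h : ∀ᶠ q in nf C p, P q) :
    ∀ᶠ q in nf C p, ∀ᶠ r in nf C q, P r := by
  filter_upwards [eventually_eventually_nhdsWithin.2 h, ev_fib] with q h1 h2
  rw [nf, h2]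
  exact h1

theorem fh_congr (h : FH C f p) (e : g =ᶠ[nf C p] f) : FH C g p := P273SD.FH.congr h e

theorem fh_chart (hC : C.IsStable) (h : FH C f p) : ∃ U u v t k, p ∈ U ∧ Mod C U u v t ∧
    AnalyticAt ℂ k (Emap C.π u v p) ∧ f =ᶠ[nf C p] fun q => k (Emap C.π u v q) := by
  obtain ⟨U, u, v, t, hU, hm⟩ := exists_mod hC p
  obtain ⟨g, h1, h2⟩ := h
  obtain ⟨k, hk, ek⟩ := (hm.hol p hU g).1 h1
  exact ⟨U, u, v, t, k, hU, hm, hk, h2.trans (ek.filter_mono nhdsWithin_le_nhds)⟩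

theorem fh_tendsto (hC : C.IsStable) (h : FH C f p) : Tendsto f (nf C p) (𝓝 (f p)) := by
  obtain ⟨U, u, v, t, k, hU, hm, hk, e⟩ := fh_chart hC h
  rw [ev_self e]
  exact (((hk.continuousAt.comp (hm.cont hU)).tendsto).mono_left nhdsWithin_le_nhds).congr' e.symm

theorem fh_ev (hC : C.IsStable) (h : FH C f p) : ∀ᶠ q in nf C p, FH C f q := by
  obtain ⟨U, u, v, t, k, hU, hm, hk, e⟩ := fh_chart hC h
  filter_upwards [mem_nhdsWithin_of_mem_nhds (hm.isOpen.mem_nhds hU),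
    mem_nhdsWithin_of_mem_nhds ((hm.cont hU).eventually hk.eventually_analyticAt), ev_ev e]
    with q h1 h2 h3
  exact ⟨_, (hm.hol q h1 _).2 ⟨k, h2, EventuallyEq.rfl⟩, h3⟩

theorem fh_comp₂ (hC : C.IsStable) (hf : FH C f p) (hg : FH C g p) {ξ : ℂ × ℂ → ℂ}
    (hξ : AnalyticAt ℂ ξ (f p, g p)) : FH C (fun q => ξ (f q, g q)) p := by
  obtain ⟨U, u, v, t, hU, hm⟩ := exists_mod hC p
  obtain ⟨f', h1, h2⟩ := hf
  obtain ⟨g', h3, h4⟩ := hg
  obtain ⟨k, hk, ek⟩ := (hm.hol p hU f').1 h1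
  obtain ⟨l, hl, el⟩ := (hm.hol p hU g').1 h3
  refine ⟨fun q => ξ (k (Emap C.π u v q), l (Emap C.π u v q)), (hm.hol p hU _).2
    ⟨fun y => ξ (k y, l y), AnalyticAt.comp_of_eq hξ (hk.prod hl) ?_, EventuallyEq.rfl⟩, ?_⟩
  · rw [ev_self h2, ev_self h4, ek.self_of_nhds, el.self_of_nhds]
    rfl
  · filter_upwards [h2, h4, ek.filter_mono nhdsWithin_le_nhds,
      el.filter_mono nhdsWithin_le_nhds] with q a1 a2 a3 a4
    rw [a1, a2, a3, a4]
    rfl

theorem fh_comp (hC : C.IsStable) (hf : FH C f p) {ξ : ℂ → ℂ} (hξ : AnalyticAt ℂ ξ (f p)) :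
    FH C (fun q => ξ (f q)) p :=
  fh_comp₂ hC hf hf (ξ := fun y => ξ y.1) (AnalyticAt.comp (g := ξ) hξ analyticAt_fst)

theorem fh_const (hC : C.IsStable) (c : ℂ) : FH C (fun _ => c) p := by
  obtain ⟨U, u, v, t, hU, hm⟩ := exists_mod hC p
  exact ⟨_, (hm.hol p hU _).2 ⟨fun _ => c, analyticAt_const, EventuallyEq.rfl⟩, EventuallyEq.rfl⟩

theorem fh_add (hC : C.IsStable) (hf : FH C f p) (hg : FH C g p) : FH C (fun q => f q + g q) p :=
  fh_comp₂ hC hf hg (ξ := fun y => y.1 + y.2) (analyticAt_fst.add analyticAt_snd)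

theorem fh_sub (hC : C.IsStable) (hf : FH C f p) (hg : FH C g p) : FH C (fun q => f q - g q) p :=
  fh_comp₂ hC hf hg (ξ := fun y => y.1 - y.2) (analyticAt_fst.sub analyticAt_snd)

theorem fh_mul (hC : C.IsStable) (hf : FH C f p) (hg : FH C g p) : FH C (fun q => f q * g q) p :=
  fh_comp₂ hC hf hg (ξ := fun y => y.1 * y.2) (analyticAt_fst.mul analyticAt_snd)

theorem fh_inv (hC : C.IsStable) (hf : FH C f p) (h0 : f p ≠ 0) : FH C (fun q => (f q)⁻¹) p :=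
  fh_comp hC hf (ξ := fun y => y⁻¹) (analyticAt_id.inv h0)

/-! ### Coordinates -/

theorem co_congr (h : Co C z p) (e : w =ᶠ[nf C p] z) : Co C w p := by
  obtain ⟨h1, W, hW, h2⟩ := h
  refine ⟨fh_congr h1 e, W ∩ {q | w q = z q}, inter_mem hW e, fun a ha b hb h3 => ?_⟩
  exact h2 ha.1 hb.1 (by rw [← ha.2, ← hb.2, h3])

theorem co_ev (hC : C.IsStable) (h : Co C z p) : ∀ᶠ q in nf C p, Co C z q := by
  obtain ⟨h1, W, hW, h2⟩ := h
  filter_upwards [fh_ev hC h1, ev_ev hW] with q a1 a2 using ⟨a1, W, a2, h2⟩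

theorem br_tendsto [Nonempty C.X] {U : Set C.X} {u v : C.X → ℂ} {t : Cm m → ℂ}
    (h : Mod C U u v t) (hp : p ∈ U) (h0 : u p = 0 → v p = 0) :
    Tendsto (Pc C U u v t (C.π p)) (𝓝 (u p)) (nf C p) := by
  have h1 := (holF_br h hp h0).tendsto
  rwa [Pc_self h hp h0] at h1

/-- There are no coordinates at the nodes. -/
theorem co_sm (hC : C.IsStable) (h : Co C z p) : Sm C p := by
  have : Nonempty C.X := ⟨p⟩
  by_contra h0
  obtain ⟨U, u, v, t, hU, hm⟩ := exists_mod hC p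
  obtain ⟨hu, hv⟩ := node_of_not_sm h0 hm hU
  obtain ⟨h1, W, hW, h2⟩ := h
  have ht : t (C.π p) = 0 := by rw [← hm.eqn p hU, hu, zero_mul]
  have e1 := Pc_self hm hU fun _ => hv
  have e2 := Pc_self hm.swap hU fun _ => hu
  have a1 : AnalyticAt ℂ (fun y => z (Pc C U u v t (C.π p) y)) (u p) :=
    (holF_br hm hU fun _ => hv).fh (by rw [e1]; exact h1)
  have a2 : AnalyticAt ℂ (fun y => z (Pc C U v u t (C.π p) y)) (v p) :=
    (holF_br hm.swap hU fun _ => hu).fh (by rw [e2]; exact h1)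
  have t1 := (br_tendsto hm hU fun _ => hv).eventually hW
  have t2 := (br_tendsto hm.swap hU fun _ => hu).eventually hW
  have b1 := ev_br hm hU fun _ => hv
  have b2 := ev_br hm.swap hU fun _ => hu
  rcases a2.eventually_constant_or_nhds_le_map_nhds with c2 | c2
  · obtain ⟨y, ⟨⟨k1, k2⟩, k3⟩, k4⟩ := ((((c2.and t2).and b2).filter_mono
      nhdsWithin_le_nhds).and (self_mem_nhdsWithin (s := {v p}ᶜ))).exists
    rw [e2] at k1
    have k5 := h2 k2 (ev_self hW) k1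
    exact k4 (by rw [mem_singleton_iff, ← k3.2.2.1, k5])
  · have c3 := c2 (image_mem_map (t2.and b2))
    rw [e2] at c3
    have c4 : Tendsto (fun y => z (Pc C U u v t (C.π p) y)) (𝓝 (u p)) (𝓝 (z p)) := by
      have c5 := a1.continuousAt.tendsto
      rwa [e1] at c5
    obtain ⟨y, ⟨⟨k1, k2⟩, k3⟩, k4⟩ := (((((c4.eventually c3).and t1).and b1).filter_mono
      nhdsWithin_le_nhds).and (self_mem_nhdsWithin (s := {u p}ᶜ))).exists
    obtain ⟨y', ⟨k5, k6⟩, k7⟩ := k1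
    have k8 := h2 k5 k2 k7
    refine k4 ?_
    rw [mem_singleton_iff, ← k3.2.2.1, ← k8, k6.2.2.2, ht, zero_div, hu]

theorem co_u {U : Set C.X} {u v : C.X → ℂ} {t : Cm m → ℂ} (h : Mod C U u v t) (hp : p ∈ U)
    (h0 : u p ≠ 0) : Co C u p := by
  have : Nonempty C.X := ⟨p⟩
  refine ⟨⟨u, h.hol_u hp, EventuallyEq.rfl⟩,
    {q | Pc C U u v t (C.π q) (u q) = q ∧ C.π q = C.π p},
    ((ev_back h hp h0).filter_mono nhdsWithin_le_nhds).and ev_fib, fun a ha b hb e => ?_⟩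
  rw [← ha.1, ← hb.1, ha.2, hb.2, e]

theorem sm_co (h : Sm C p) : ∃ z, C.hol z p ∧ Co C z p := by
  obtain ⟨U, u, v, t, hU, hm, h0⟩ := h
  exact ⟨u, hm.hol_u hU, co_u hm hU h0⟩

/-- `P` is the local inverse of the coordinate `z` at `p`. -/
structure Par (C : Fam L m) (z : C.X → ℂ) (p : C.X) (P : ℂ → C.X) : Prop where
  hol : HolF C (C.π p) P (z p)
  base : P (z p) = p
  right : ∀ᶠ y in 𝓝 (z p), z (P y) = y
  left : ∀ᶠ q in nf C p, P (z q) = q

theorem co_par (hC : C.IsStable) (h : Co C z p) : ∃ P, Par C z p P := by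
  have : Nonempty C.X := ⟨p⟩
  obtain ⟨U, u, v, t, hU, hm, h0⟩ := co_sm hC h
  obtain ⟨h1, W, hW, h2⟩ := h
  have e := Pc_self hm hU (absurd · h0)
  set G : ℂ → ℂ := fun y => z (Pc C U u v t (C.π p) y) with hG
  have hGa : AnalyticAt ℂ G (u p) := (holF_br hm hU (absurd · h0)).fh (by rw [e]; exact h1)
  obtain ⟨O, hO1, hO2, hO3⟩ := eventually_nhds_iff.1
    (((br_tendsto hm hU (absurd · h0)).eventually hW).and
      ((ev_br hm hU (absurd · h0)).and hGa.eventually_analyticAt))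
  have hinj : InjOn G O := by
    intro a ha b hb e1
    have h7 := h2 (hO1 a ha).1 (hO1 b hb).1 e1
    rw [← (hO1 a ha).2.1.2.2.1, h7, (hO1 b hb).2.1.2.2.1]
  have hd : deriv G (u p) ≠ 0 := P247.H558.VF.injOn_deriv_ne_zero hO2
    (fun a ha => (hO1 a ha).2.2.differentiableAt.differentiableWithinAt) hinj hO3
  have hs := hGa.hasStrictDerivAt
  have hGp : G (u p) = z p := by simp only [hG, e]
  have hinv : AnalyticAt ℂ (hs.localInverse G _ _ hd) (z p) :=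
    hGp ▸ hGa.analyticAt_localInverse hd
  have hl : ∀ᶠ y in 𝓝 (u p), hs.localInverse G _ _ hd (G y) = y := hs.eventually_left_inverse hd
  have hr : ∀ᶠ y in 𝓝 (z p), G (hs.localInverse G _ _ hd y) = y :=
    hGp ▸ hs.eventually_right_inverse hd
  have h3 : hs.localInverse G _ _ hd (z p) = u p := by rw [← hGp]; exact hl.self_of_nhds
  refine ⟨fun y => Pc C U u v t (C.π p) (hs.localInverse G _ _ hd y),
    HolF.comp (by rw [h3]; exact holF_br hm hU (absurd · h0)) hinv, by rw [h3, e], hr, ?_⟩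
  filter_upwards [mem_nhdsWithin_of_mem_nhds (ev_back hm hU h0), ev_fib,
    mem_nhdsWithin_of_mem_nhds ((hm.cont_u hU).eventually hl)] with q h6 h7 h8
  rw [h7] at h6
  simp only [hG, h6] at h8
  rw [h8, h6]

namespace Par

variable {P : ℂ → C.X}

theorem tendsto (h : Par C z p P) : Tendsto P (𝓝 (z p)) (nf C p) := by
  have h1 := h.hol.tendsto
  rwa [h.base] at h1

theorem an (h : Par C z p P) (hf : FH C f p) : AnalyticAt ℂ (fun y => f (P y)) (z p) :=
  h.hol.fh (by rw [h.base]; exact hf)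

theorem eq (h : Par C z p P) (f : C.X → ℂ) : f =ᶠ[nf C p] fun q => f (P (z q)) :=
  h.left.mono fun q hq => by simp only [hq]

theorem fh (hC : C.IsStable) (hz : Co C z p) (h : Par C z p P)
    (hf : AnalyticAt ℂ (fun y => f (P y)) (z p)) : FH C f p :=
  fh_congr (fh_comp hC hz.1 hf) (h.eq f)

end Par

/-- The holomorphic functions are the holomorphic functions of a coordinate. -/
theorem fh_iff (hC : C.IsStable) (hz : Co C z p) :
    FH C f p ↔ ∃ ξ, AnalyticAt ℂ ξ (z p) ∧ f =ᶠ[nf C p] fun q => ξ (z q) := by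
  obtain ⟨P, hP⟩ := co_par hC hz
  exact ⟨fun h => ⟨_, hP.an h, hP.eq f⟩, fun ⟨ξ, h1, h2⟩ => fh_congr (fh_comp hC hz.1 h1) h2⟩

theorem map_co (hC : C.IsStable) (hz : Co C z p) : map z (nf C p) = 𝓝 (z p) := by
  obtain ⟨P, hP⟩ := co_par hC hz
  refine le_antisymm (fh_tendsto hC hz.1) fun s hs => ?_
  filter_upwards [hP.tendsto hs, hP.right] with y h1 h2
  rw [← h2]
  exact h1

theorem co_comp (hC : C.IsStable) (hz : Co C z p) {ξ : ℂ → ℂ} (hξ : AnalyticAt ℂ ξ (z p))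
    (hd : deriv ξ (z p) ≠ 0) : Co C (fun q => ξ (z q)) p := by
  obtain ⟨h1, W, hW, h2⟩ := hz
  have hl := hξ.hasStrictDerivAt.eventually_left_inverse hd
  refine ⟨fh_comp hC h1 hξ, W ∩ {q | hξ.hasStrictDerivAt.localInverse ξ _ _ hd (ξ (z q)) = z q},
    inter_mem hW ((fh_tendsto hC h1).eventually hl), fun a ha b hb e => h2 ha.1 hb.1 ?_⟩
  have e' : ξ (z a) = ξ (z b) := e
  rw [← ha.2, ← hb.2, e']

/-! ### Derivatives -/

theorem dr_of (hC : C.IsStable) (hz : Co C z p) {ξ : ℂ → ℂ} {c : ℂ} (hξ : HasDerivAt ξ c (z p))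
    (e : f =ᶠ[nf C p] fun q => ξ (z q)) : Dr C f z p c := by
  have h1 := (hasDerivAt_iff_isLittleO.1 hξ).comp_tendsto (fh_tendsto hC hz.1)
  refine h1.congr' ?_ EventuallyEq.rfl
  filter_upwards [e] with q hq
  simp only [Function.comp_apply, hq, ev_self e, smul_eq_mul]
  ring

theorem dr_iff (hC : C.IsStable) (hz : Co C z p) {P : ℂ → C.X} (hP : Par C z p P) {c : ℂ} :
    Dr C f z p c ↔ HasDerivAt (fun y => f (P y)) c (z p) := by
  refine ⟨fun h => ?_, fun h => dr_of hC hz h (hP.eq f)⟩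
  rw [hasDerivAt_iff_isLittleO]
  refine (IsLittleO.comp_tendsto h hP.tendsto).congr' ?_ ?_
  · filter_upwards [hP.right] with y hy
    simp only [Function.comp_apply, hy, hP.base, smul_eq_mul]
    ring
  · filter_upwards [hP.right] with y hy
    simp only [Function.comp_apply, hy]

theorem dr_unique (hC : C.IsStable) (hz : Co C z p) {c c' : ℂ} (h : Dr C f z p c)
    (h' : Dr C f z p c') : c = c' := by
  obtain ⟨P, hP⟩ := co_par hC hz
  exact ((dr_iff hC hz hP).1 h).unique ((dr_iff hC hz hP).1 h')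

theorem dr_exists (hC : C.IsStable) (hz : Co C z p) (hf : FH C f p) : ∃ c, Dr C f z p c := by
  obtain ⟨P, hP⟩ := co_par hC hz
  exact ⟨_, (dr_iff hC hz hP).2 (hP.an hf).differentiableAt.hasDerivAt⟩

theorem dr_ne (hC : C.IsStable) (hz : Co C z p) (hw : Co C w p) {c : ℂ} (h : Dr C w z p c) :
    c ≠ 0 := by
  obtain ⟨P, hP⟩ := co_par hC hz
  obtain ⟨h1, W, hW, h2⟩ := hw
  have ha := hP.an h1
  obtain ⟨O, hO1, hO2, hO3⟩ := eventually_nhds_iff.1
    ((hP.tendsto.eventually hW).and (hP.right.and ha.eventually_analyticAt))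
  rw [← ((dr_iff hC hz hP).1 h).deriv]
  refine P247.H558.VF.injOn_deriv_ne_zero hO2
    (fun a ha => (hO1 a ha).2.2.differentiableAt.differentiableWithinAt) (fun a ha b hb e => ?_) hO3
  rw [← (hO1 a ha).2.1, h2 (hO1 a ha).1 (hO1 b hb).1 e, (hO1 b hb).2.1]

theorem co_of_dr (hC : C.IsStable) (hz : Co C z p) (hf : FH C f p) {c : ℂ} (h : Dr C f z p c)
    (hc : c ≠ 0) : Co C f p := by
  obtain ⟨P, hP⟩ := co_par hC hz
  refine co_congr (co_comp hC hz (hP.an hf) ?_) (hP.eq f)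
  rwa [((dr_iff hC hz hP).1 h).deriv]

/-- The coefficient of a differential in a coordinate is holomorphic. -/
theorem om_fh (hC : C.IsStable) {η : Df C} (hη : Om C (C.π p) η) (hz : Co C z p) :
    FH C (η z) p := by
  obtain ⟨U, u, v, t, hU, hm, h0⟩ := co_sm hC hz
  obtain ⟨F, hF, h1⟩ := (hη p rfl).2 U u v t hm.isChart hU
  obtain ⟨P, hP⟩ := co_par hC hz
  have hu := co_u hm hU h0
  have ha := hP.an hu.1
  have h2 : FH C (fun q => deriv (fun y => u (P y)) (z q) * (F q * (u q)⁻¹)) p :=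
    fh_mul hC (fh_comp hC hz.1 ha.deriv) (fh_mul hC hF (fh_inv hC hu.1 h0))
  refine fh_congr h2 ?_
  filter_upwards [h1, co_ev hC hz, co_ev hC hu, ev_ev (hP.eq u), ev_fib,
    (fh_tendsto hC hz.1).eventually ha.eventually_analyticAt,
    (fh_tendsto hC hu.1).eventually_ne h0] with q a1 a2 a3 a4 a5 a6 a7
  rw [(hη q a5).1 z u _ a2 a3 (dr_of hC a2 a6.differentiableAt.hasDerivAt a4), ← a1.1 a7]
  field_simp

/-! ### Isomorphisms -/

variable {C' : Fam L m'} {b : Cm m} {b' : Cm m'}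

theorem iso_of_fiso (hC : C.IsStable) (hC' : C'.IsStable) (hb : b ∈ C.B) (hb' : b' ∈ C'.B)
    {φ : C.X → C'.X} (h : FIso C b C' b' φ) : (fun p : C.fib b => φ p) ∈ Iso C b C' b' := by
  obtain ⟨ψ, hψ, hi⟩ := h.symm hC hC' hb hb'
  refine ⟨h.cont.restrict, fun p q e => Subtype.ext (h.bij.injOn p.2 q.2 e), ?_, fun i p hp => ?_,
    fun p f f' e => ⟨fun hf => ?_, fun hf => ?_⟩⟩
  · rw [← h.bij.image_eq, image_eq_range]
  · simp only [hp, h.mark]
  · have h1 : C'.π (φ p) = b' := h.bij.mapsTo p.2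
    have h2 : C.π p = b := p.2
    have h3 := hψ.fh (p := φ p) h1 (F := f) (by rw [hi.1 p.2]; rw [fh_iff_sd, h2] at hf; exact hf)
    rw [fh_iff_sd, h1]
    refine h3.congr ?_
    filter_upwards [self_mem_nhdsWithin] with q hq
    have h4 : f (ψ q) = f' (φ (ψ q)) := e ⟨ψ q, hψ.bij.mapsTo hq⟩
    rw [h4, hi.2 hq]
  · have h1 : C'.π (φ p) = b' := h.bij.mapsTo p.2
    have h2 : C.π p = b := p.2
    rw [fh_iff_sd, h1] at hf
    rw [fh_iff_sd, h2]
    refine (h.fh p.2 hf).congr ?_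
    filter_upwards [self_mem_nhdsWithin] with q hq using e ⟨q, hq⟩

theorem fiso_of_iso (hC : C.IsStable) (hb : b ∈ C.B) {Φ : C.fib b → C'.X}
    (h : Φ ∈ Iso C b C' b') : ∃ φ, FIso C b C' b' φ ∧ ∀ p : C.fib b, φ p = Φ p := by
  classical
  obtain ⟨p₀, hp₀⟩ := (hC.2.2.2.2.2 b hb).1.nonempty
  obtain ⟨h1, h2, h3, h4, h5⟩ := h
  let φ : C.X → C'.X := fun q => if hq : q ∈ C.fib b then Φ ⟨q, hq⟩ else Φ ⟨p₀, hp₀⟩
  have e : ∀ p : C.fib b, φ p = Φ p := fun p => dif_pos p.2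
  refine ⟨φ, ⟨⟨fun q hq => ?_, fun q hq r hr a => ?_, fun q hq => ?_⟩, ?_, fun q hq f hf => ?_,
    fun i => ?_⟩, e⟩
  · rw [e ⟨q, hq⟩, ← h3]
    exact mem_range_self _
  · rw [e ⟨q, hq⟩, e ⟨r, hr⟩] at a
    exact congrArg Subtype.val (h2 a)
  · rw [← h3] at hq
    obtain ⟨r, rfl⟩ := hq
    exact ⟨r, r.2, e r⟩
  · rw [continuousOn_iff_continuous_restrict]
    exact h1.congr fun p => (e p).symm
  · have h6 := (h5 ⟨q, hq⟩ (fun r => f (φ r)) f fun r => by rw [e]).2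
      ⟨f, by rw [← e ⟨q, hq⟩]; exact hf, EventuallyEq.rfl⟩
    rw [fh_iff_sd, show C.π q = b from hq] at h6
    exact h6
  · have h6 : C.s i b ∈ C.fib b := ((hC.2.2.2.2.2 b hb).2.1 i).1
    rw [e ⟨_, h6⟩]
    exact h4 i _ rfl

end Vale.Agent.P269CV

end
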