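import Vale.Agent.P269C.Spec
import Vale.Agent.P269CV.Co

/-!
P269, block C, row K2: calculus on a stable family.
-/

noncomputable section

namespace Vale.Agent.P269CV

open Set Filter Topology Asymptotics Vale.Agent.P269C Vale.Agent.P273.H183 Vale.Agent.P272.K
open Vale.Agent.P273SD (HolF Mod Pc FIso exists_mod node_of_not_sm holF_br ev_br Pc_self
  ev_back fh_smooth cont_π sm_of_mod isOpen_sm tendsto_Pc ev_Pc an_Pc)
open Vale.Agent.P273.H948 (Emap)

variable {L : Type} {m m' : ℕ} {C : Fam L m} {p : C.X} {f g z w : C.X → ℂ}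

theorem hol_cont (hC : C.IsStable) (h : C.hol f p) : ContinuousAt f p := by
  obtain ⟨U, u, v, t, hU, hm⟩ := exists_mod hC p
  obtain ⟨k, hk, e⟩ := (hm.hol p hU f).1 h
  exact (hk.continuousAt.comp (hm.cont hU)).congr e.symm

theorem hol_congr (hC : C.IsStable) (h : C.hol f p) (e : g =ᶠ[𝓝 p] f) : C.hol g p := by
  obtain ⟨U, u, v, t, hU, hm⟩ := exists_mod hC p
  exact hm.hol_congr hU h e

theorem hol_ev (hC : C.IsStable) (h : C.hol f p) : ∀ᶠ q in 𝓝 p, C.hol f q := by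
  obtain ⟨U, u, v, t, hU, hm⟩ := exists_mod hC p
  obtain ⟨k, hk, e⟩ := (hm.hol p hU f).1 h
  filter_upwards [hm.isOpen.mem_nhds hU, (hm.cont hU).eventually hk.eventually_analyticAt,
    e.eventuallyEq_nhds] with q h1 h2 h3
  exact (hm.hol q h1 f).2 ⟨k, h2, h3⟩

theorem hol_an (hC : C.IsStable) (F : Cm m × ℂ × ℂ → ℂ) (hf : C.hol f p) (hg : C.hol g p)
    (hF : AnalyticAt ℂ F (C.π p, f p, g p)) : C.hol (fun q => F (C.π q, f q, g q)) p := by
  obtain ⟨U, u, v, t, hU, hm⟩ := exists_mod hC p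
  obtain ⟨k, hk, ek⟩ := (hm.hol p hU f).1 hf
  obtain ⟨l, hl, el⟩ := (hm.hol p hU g).1 hg
  refine (hm.hol p hU _).2 ⟨fun y => F (y.1, k y, l y),
    AnalyticAt.comp_of_eq hF (analyticAt_fst.prod (hk.prod hl)) ?_, ?_⟩
  · rw [ek.self_of_nhds, el.self_of_nhds]
    rfl
  · filter_upwards [ek, el] with q a1 a2
    rw [a1, a2]
    rfl

theorem hol_an₁ (hC : C.IsStable) (F : Cm m × ℂ → ℂ) (hf : C.hol f p)
    (hF : AnalyticAt ℂ F (C.π p, f p)) : C.hol (fun q => F (C.π q, f q)) p :=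
  hol_an hC (fun y => F (y.1, y.2.1)) hf hf (AnalyticAt.comp_of_eq hF (analyticAt_fst.prod
    (AnalyticAt.comp (g := Prod.fst) analyticAt_fst analyticAt_snd)) rfl)

theorem co_hol (h : C.hol z p) : FH C z p := ⟨z, h, EventuallyEq.rfl⟩

theorem sp_iff (hC : C.IsStable) : Sp C p ↔ P273SD.Sm C p := by
  refine ⟨fun h => ?_, fun h U x y t hc hU =>
    h.all hC (IsChart.isModel (hol := fun x g => C.hol g x) hc) hU⟩
  obtain ⟨U, u, v, t, hU, hm⟩ := exists_mod hC p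
  exact sm_of_mod hm hU (h U u v t hm.isChart hU)

theorem isOpen_smooth (hC : C.IsStable) : IsOpen {b | b ∈ C.B ∧ Sm C b} := by
  refine isOpen_iff_mem_nhds.2 fun b hb => ?_
  obtain ⟨K, hK, hKB, hKc⟩ := local_compact_nhds (hC.1.mem_nhds hb.1)
  have h1 : IsCompact (C.π '' (C.π ⁻¹' K ∩ {p | P273SD.Sm C p}ᶜ)) :=
    ((hC.2.2.2.1 K hKB hKc).inter_right (isOpen_sm C).isClosed_compl).image (cont_π hC)
  have h2 : b ∉ C.π '' (C.π ⁻¹' K ∩ {p | P273SD.Sm C p}ᶜ) := by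
    rintro ⟨q, hq, e⟩
    exact hq.2 ((sp_iff hC).1 (hb.2 q e))
  filter_upwards [hK, h1.isClosed.isOpen_compl.mem_nhds h2] with a a1 a2
  refine ⟨hKB a1, fun q hq => (sp_iff hC).2 ?_⟩
  by_contra h3
  exact a2 ⟨q, ⟨show C.π q ∈ K from hq ▸ a1, h3⟩, hq⟩

theorem dr_chain {c c' : ℂ} (h : Dr C f z p c) (h' : Dr C z w p c') : Dr C f w p (c * c') := by
  have h1 : (fun q => z q - z p) =O[nf C p] fun q => w q - w p := by
    refine (h'.isBigO.add ((isBigO_refl (fun q => w q - w p) _).const_mul_left c')).congr_left ?_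
    intro q
    ring
  refine ((h.trans_isBigO h1).add (h'.const_mul_left c)).congr_left fun q => ?_
  ring

namespace Par

variable {P : ℂ → C.X}

theorem congr {P' : ℂ → C.X} (hC : C.IsStable) (hz : Co C z p) (h : Par C z p P)
    (e : P =ᶠ[𝓝 (z p)] P') : Par C z p P' :=
  ⟨h.hol.congr e, e.self_of_nhds.symm.trans h.base, by
    filter_upwards [h.right, e] with y a1 a2
    rwa [← a2], by
    filter_upwards [h.left, (fh_tendsto hC hz.1).eventually e] with q a1 a2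
    rwa [← a2]⟩

theorem ev (hC : C.IsStable) (hz : Co C z p) (h : Par C z p P) :
    ∀ᶠ q in nf C p, Co C z q ∧ Par C z q P := by
  filter_upwards [co_ev hC hz, ev_ev h.left] with q a1 a2
  obtain ⟨P', hP'⟩ := co_par hC a1
  refine ⟨a1, hP'.congr hC a1 ?_⟩
  filter_upwards [hP'.tendsto.eventually a2, hP'.right] with y b1 b2
  rw [← b1, b2]

theorem map_eq (hC : C.IsStable) (hz : Co C z p) (h : Par C z p P) :
    map P (𝓝 (z p)) = nf C p := by
  rw [← map_co hC hz, Filter.map_map]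
  exact (map_congr h.left).trans map_id

end Par

/-- `σ` is the local inverse of `(π, z)` at `p`. -/
structure Par2 (C : Fam L m) (z : C.X → ℂ) (p : C.X) (σ : Cm m × ℂ → C.X) : Prop where
  tend : Tendsto σ (𝓝 (C.π p, z p)) (𝓝 p)
  an : ∀ f, C.hol f p → AnalyticAt ℂ (fun s => f (σ s)) (C.π p, z p)
  right : ∀ᶠ s in 𝓝 (C.π p, z p), C.π (σ s) = s.1 ∧ z (σ s) = s.2
  left : ∀ᶠ q in 𝓝 p, σ (C.π q, z q) = q

theorem slice_deriv {G : Cm m × ℂ → ℂ} {x : Cm m × ℂ} (hG : AnalyticAt ℂ G x) :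
    HasDerivAt (fun y => G (x.1, y)) (fderiv ℂ G x (0, 1)) x.2 :=
  hG.differentiableAt.hasFDerivAt.comp_hasDerivAt x.2
    ((hasDerivAt_const x.2 x.1).prodMk (hasDerivAt_id x.2))

theorem par_pc [Nonempty C.X] {U : Set C.X} {u v : C.X → ℂ} {t : Cm m → ℂ} (hm : Mod C U u v t)
    (hU : p ∈ U) (h0 : u p ≠ 0) : Par C u p (Pc C U u v t (C.π p)) :=
  ⟨holF_br hm hU (absurd · h0), Pc_self hm hU (absurd · h0),
    (ev_br hm hU (absurd · h0)).mono fun _ h => h.2.2.1, by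
    filter_upwards [mem_nhdsWithin_of_mem_nhds (ev_back hm hU h0), ev_fib] with q a1 a2
    rwa [← a2]⟩

theorem co_par2 (hC : C.IsStable) (hh : C.hol z p) (hz : Co C z p) : ∃ σ, Par2 C z p σ := by
  have : Nonempty C.X := ⟨p⟩
  obtain ⟨U, u, v, t, hU, hm, h0⟩ := co_sm hC hz
  set G : Cm m × ℂ → ℂ := fun x => z (Pc C U u v t x.1 x.2) with hG
  have hGa : AnalyticAt ℂ G (C.π p, u p) := an_Pc hm hU h0 hh
  have hd : fderiv ℂ G (C.π p, u p) (0, 1) ≠ 0 := dr_ne hC (co_u hm hU h0) hz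
    ((dr_iff hC (co_u hm hU h0) (par_pc hm hU h0)).2 (slice_deriv hGa))
  let D : (Cm m × ℂ) →L[ℂ] (Cm m × ℂ) :=
    (ContinuousLinearMap.fst ℂ (Cm m) ℂ).prod (fderiv ℂ G (C.π p, u p))
  have hinj : Function.Injective (D : (Cm m × ℂ) →ₗ[ℂ] (Cm m × ℂ)) := by
    refine (injective_iff_map_eq_zero _).2 fun x hx => ?_
    have h1 : x.1 = 0 := congrArg Prod.fst hx
    have h2 : fderiv ℂ G (C.π p, u p) x = 0 := congrArg Prod.snd hx
    have h3 : x = x.2 • ((0, 1) : Cm m × ℂ) := by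
      ext <;> simp [h1]
    rw [h3, map_smul, smul_eq_mul] at h2
    rw [h3, (mul_eq_zero.1 h2).resolve_right hd, zero_smul]
  let E : (Cm m × ℂ) ≃L[ℂ] (Cm m × ℂ) :=
    (LinearEquiv.ofInjectiveEndo _ hinj).toContinuousLinearEquiv
  have hH : AnalyticAt ℂ (fun x : Cm m × ℂ => (x.1, G x)) (C.π p, u p) := analyticAt_fst.prod hGa
  have hs : HasStrictFDerivAt (fun x : Cm m × ℂ => (x.1, G x))
      (E : (Cm m × ℂ) →L[ℂ] (Cm m × ℂ)) (C.π p, u p) :=
    hasStrictFDerivAt_fst.prodMk hGa.hasStrictFDerivAt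
  have hp : ((C.π p, G (C.π p, u p)) : Cm m × ℂ) = (C.π p, z p) := by
    simp only [hG, Pc_self hm hU (absurd · h0)]
  have hi : AnalyticAt ℂ (hs.localInverse _ E _) (C.π p, z p) := by
    rw [← hp]
    exact ContDiffAt.analyticAt
      (hH.contDiffAt.to_localInverse hs.hasFDerivAt (by simp))
  have hl := hs.eventually_left_inverse
  have hr := hs.eventually_right_inverse
  have e0 : hs.localInverse _ E _ (C.π p, z p) = (C.π p, u p) := hp ▸ hl.self_of_nhds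
  rw [hp] at hr
  have ht : Tendsto (hs.localInverse _ E _) (𝓝 (C.π p, z p)) (𝓝 (C.π p, u p)) := by
    have h1 := hi.continuousAt
    rwa [ContinuousAt, e0] at h1
  refine ⟨fun s => Pc C U u v t (hs.localInverse _ E _ s).1 (hs.localInverse _ E _ s).2,
    (tendsto_Pc hm hU h0).comp ht, fun f hf => AnalyticAt.comp_of_eq
      (g := fun x : Cm m × ℂ => f (Pc C U u v t x.1 x.2)) (an_Pc hm hU h0 hf) hi e0,
    ?_, ?_⟩
  · filter_upwards [ht.eventually (ev_Pc hm hU h0), hr] with s a1 a2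
    exact ⟨a1.2.1.trans (Prod.ext_iff.1 a2).1, (Prod.ext_iff.1 a2).2⟩
  · filter_upwards [ev_back hm hU h0,
      ((hm.cont_π hU).prodMk (hm.cont_u hU)).eventually hl] with q a1 a2
    simp only [hG, a1] at a2
    rw [a2, a1]

namespace Par2

variable {σ : Cm m × ℂ → C.X}

theorem base (h : Par2 C z p σ) : σ (C.π p, z p) = p := h.left.self_of_nhds

theorem hol (hC : C.IsStable) (hh : C.hol z p) (h : Par2 C z p σ)
    (hf : AnalyticAt ℂ (fun s => f (σ s)) (C.π p, z p)) : C.hol f p :=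
  hol_congr hC (hol_an₁ hC _ hh hf) (h.left.mono fun q hq => by simp only [hq])

theorem dr (hC : C.IsStable) (hh : C.hol z p) (h : Par2 C z p σ) (hf : C.hol f p) :
    ∀ᶠ q in 𝓝 p, Co C z q → Dr C f z q (fderiv ℂ (fun s => f (σ s)) (C.π q, z q) (0, 1)) := by
  filter_upwards [((cont_π hC).continuousAt.prodMk (hol_cont hC hh)).eventually
    (h.an f hf).eventually_analyticAt, h.left.eventually_nhds] with q a1 a2 a3
  refine dr_of hC a3 (slice_deriv a1) ?_
  filter_upwards [mem_nhdsWithin_of_mem_nhds a2, ev_fib] with r b1 b2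
  rw [← b2, b1]

theorem an_d (h : Par2 C z p σ) (hf : C.hol f p) :
    AnalyticAt ℂ (fun s => fderiv ℂ (fun s => f (σ s)) s (0, 1)) (C.π p, z p) :=
  ((ContinuousLinearMap.apply ℂ ℂ ((0, 1) : Cm m × ℂ)).analyticAt _).comp (h.an f hf).fderiv

theorem co (hC : C.IsStable) (hh : C.hol z p) (h : Par2 C z p σ) :
    ∀ᶠ q in 𝓝 p, C.hol z q ∧ Co C z q := by
  filter_upwards [hol_ev hC hh, h.left.eventually_nhds] with q a1 a2
  refine ⟨a1, co_hol a1, {r | σ (C.π r, z r) = r ∧ C.π r = C.π q},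
    (a2.filter_mono nhdsWithin_le_nhds).and ev_fib, fun a ha b hb e => ?_⟩
  rw [← ha.1, ← hb.1, ha.2, hb.2, e]

theorem congr {σ' : Cm m × ℂ → C.X} (hC : C.IsStable) (hh : C.hol z p) (h : Par2 C z p σ)
    (e : σ =ᶠ[𝓝 (C.π p, z p)] σ') : Par2 C z p σ' :=
  ⟨h.tend.congr' e, fun f hf => (h.an f hf).congr (e.mono fun s hs => by simp only [hs]), by
    filter_upwards [h.right, e] with y a1 a2
    rwa [← a2], by
    filter_upwards [h.left, ((cont_π hC).continuousAt.prodMk (hol_cont hC hh)).eventually e]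
      with q a1 a2
    rwa [← a2]⟩

theorem ev (hC : C.IsStable) (hh : C.hol z p) (h : Par2 C z p σ) :
    ∀ᶠ q in 𝓝 p, C.hol z q ∧ Par2 C z q σ := by
  filter_upwards [h.co hC hh, h.left.eventually_nhds] with q a1 a2
  obtain ⟨σ', h'⟩ := co_par2 hC a1.1 a1.2
  refine ⟨a1.1, h'.congr hC a1.1 ?_⟩
  filter_upwards [h'.tend.eventually a2, h'.right] with y b1 b2
  rw [← b1, b2.1, b2.2]

theorem map_eq (hC : C.IsStable) (hh : C.hol z p) (h : Par2 C z p σ) :
    map σ (𝓝 (C.π p, z p)) = 𝓝 p := by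
  refine le_antisymm h.tend fun s hs => ?_
  filter_upwards [((cont_π hC).continuousAt.prodMk (hol_cont hC hh)) hs, h.left] with q a1 a2
  rw [← a2]
  exact a1

end Par2

theorem k2 : K2 where
  cπ hC := cont_π hC
  hc hC := hol_cont hC
  hcg hC := hol_congr hC
  hev hC := hol_ev hC
  han hC := hol_an hC
  fan hC := fun _ hf hg hF => fh_comp₂ hC hf hg hF
  fc hC := fun h => ⟨fh_tendsto hC h, fh_ev hC h⟩
  sp _ := fun hc hU => by
    have hm := IsChart.isModel (hol := fun x g => Fam.hol _ g x) hc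
    exact ⟨fun h => ⟨hm.hol_u hU, co_u hm hU h⟩, fun h => ⟨hm.hol_v hU, co_u hm.swap hU h⟩⟩
  ex hC := fun h => sm_co ((sp_iff hC).1 h)
  csp hC := fun h => (sp_iff hC).2 (co_sm hC h)
  smo hC := isOpen_smooth hC
  ev hC := fun hh hz => let ⟨_, h⟩ := co_par2 hC hh hz; h.co hC hh
  evf hC := co_ev hC
  dr hC := fun {z f p} hz hf => by
    obtain ⟨P, hP⟩ := co_par hC hz
    refine ⟨fun q => deriv (fun y => f (P y)) (z q), fh_comp hC hz.1 (hP.an hf).deriv, ?_⟩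
    filter_upwards [hP.ev hC hz, fh_ev hC hf] with q a1 a2
    exact (dr_iff hC a1.1 a1.2).2 (a1.2.an a2).differentiableAt.hasDerivAt
  drh hC := fun hh hz hf => by
    obtain ⟨σ, h⟩ := co_par2 hC hh hz
    refine ⟨_, hol_an₁ hC _ hh (h.an_d hf), ?_⟩
    filter_upwards [h.dr hC hh hf, h.co hC hh] with q a1 a2 using a1 a2.2
  uq hC := fun hz h h' => dr_unique hC hz h h'
  ne hC := fun hz hf h => ⟨fun hw => dr_ne hC hz hw h, co_of_dr hC hz hf h⟩
  ch := dr_chain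
  par hC := fun {z p} hz => by
    obtain ⟨P, hP⟩ := co_par hC hz
    refine ⟨P, hP.base, hP.left, ?_⟩
    filter_upwards [hP.right, hP.tendsto.eventually (hP.ev hC hz), hP.tendsto.eventually ev_fib]
      with y a1 a2 a3
    have h1 := a2.2.map_eq hC a2.1
    have h2 := fun f d => dr_iff (f := f) (c := d) hC a2.1 a2.2
    have h3 : ∀ f, FH _ f (P y) ↔ AnalyticAt ℂ (fun s => f (P s)) (z (P y)) :=
      fun f => ⟨a2.2.an, a2.2.fh hC a2.1⟩
    rw [a1] at h1 h2 h3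
    exact ⟨a1, a3, h1, h3, h2⟩
  pch hC := fun {z p} hh hz => by
    obtain ⟨σ, h⟩ := co_par2 hC hh hz
    refine ⟨σ, h.base, h.left, ?_⟩
    filter_upwards [h.right, h.tend.eventually (h.ev hC hh)] with s a1 a2
    have h1 := a2.2.map_eq hC a2.1
    have h3 : ∀ f, Fam.hol _ f (σ s) ↔ AnalyticAt ℂ (fun s => f (σ s)) (Fam.π _ (σ s), z (σ s)) :=
      fun f => ⟨a2.2.an f, a2.2.hol hC a2.1⟩
    rw [a1.1, a1.2] at h1 h3
    exact ⟨a1.1, a1.2, h1, h3⟩

end Vale.Agent.P269CV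

end
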