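import Vale.Agent.P269C.Defs

/-!
P269, block C: the algebraic properties of the integrals (scalars, degree).
-/

noncomputable section

namespace Vale.Agent.P269CV

open MvPolynomial MeasureTheory Vale.Agent.P269C Vale.Agent.P273.H183 Vale.Agent.P272.K

variable {D : ℕ}

theorem tau_add (P Q : Po D) : tau (P + Q) = tau P + tau Q := by
  simp only [tau, coeff_add, mul_add, Finset.sum_add_distrib, add_div]

theorem tau_smul (c : ℂ) (P : Po D) : tau (c • P) = c * tau P := by
  simp only [tau, coeff_smul, smul_eq_mul]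
  rw [← mul_div_assoc, Finset.mul_sum]
  congr 1
  exact Finset.sum_congr rfl fun σ _ => by ring

theorem tau_zero : tau (0 : Po D) = 0 := by simp [tau]

/-- Only the part of degree `D` counts. -/
theorem tau_of_hom {P : Po D} {n : ℕ} (h : P.IsHomogeneous n) (hn : n ≠ D) : tau P = 0 := by
  have h1 : ∀ σ : Equiv.Perm (Fin D), coeff (∑ k, Finsupp.single (k, σ k) 1) P = 0 := by
    intro σ
    refine h.coeff_eq_zero ?_
    rw [map_sum]
    simp only [Finsupp.degree_single, Finset.sum_const, Finset.card_univ, Fintype.card_fin,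
      smul_eq_mul, mul_one]
    exact fun e => hn e.symm
  simp [tau, h1]

theorem tau_one_zero : tau (1 : Po 0) = 1 := by
  simp [tau]

theorem chern_hom {ι : Type} [Fintype ι] [DecidableEq ι] (G : Cm D → Matrix ι ι ℂ) (k : ℕ)
    (z : Cm D) : (chern G k z).IsHomogeneous k :=
  homogeneousComponent_isHomogeneous k _

theorem aeval_hom {σ : Type} {f : ℕ → MvPolynomial σ ℂ} (hf : ∀ k, (f k).IsHomogeneous k)
    {P : MvPolynomial ℕ ℂ} {w : ℕ} (hP : P.IsWeightedHomogeneous (fun i : ℕ => i) w) :
    (aeval f P).IsHomogeneous w := by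
  rw [P.as_sum, map_sum]
  refine IsHomogeneous.sum _ _ _ fun d hd => ?_
  rw [aeval_monomial]
  have h1 : w = 0 + ∑ i ∈ d.support, i * d i := by
    rw [← hP (mem_support_iff.1 hd), Finsupp.weight_apply, Finsupp.sum, zero_add]
    exact Finset.sum_congr rfl fun i _ => by rw [smul_eq_mul, mul_comm]
  rw [h1]
  refine IsHomogeneous.mul (isHomogeneous_C _ _) ?_
  exact IsHomogeneous.prod _ _ _ fun i _ => (hf i).pow _

theorem sum_get (ms : List ℕ) : ∑ i : Fin ms.length, 1 * ms.get i = ms.sum := by
  simp only [one_mul]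
  rw [← List.sum_ofFn, List.ofFn_get]

/-- **Scalars.** -/
theorem I_smul (M : Md) (g : ℕ) (ms : List ℕ) (c : ℂ) (P : MvPolynomial ℕ ℂ) :
    M.I g ms (c • P) = c * M.I g ms P := by
  unfold Md.I
  split_ifs with s
  · simp only [Atlas.int, map_smul, smul_mul_assoc, tau_smul, Finset.mul_sum]
    refine Finset.sum_congr rfl fun a _ => ?_
    rw [← integral_const_mul]
    congr 1
    funext b
    ring
  · rw [mul_zero]

/-- **Degree.** -/
theorem I_degree (M : Md) (g : ℕ) (ms : List ℕ) (P : MvPolynomial ℕ ℂ) (w : ℕ)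
    (s : 2 < 2 * g + ms.length) (hP : P.IsWeightedHomogeneous (fun i : ℕ => i) w)
    (h : M.I g ms P ≠ 0) : w + ms.sum + 3 = 3 * g + ms.length := by
  by_contra hne
  refine h ?_
  rw [Md.I, dif_pos s, Atlas.int]
  refine Finset.sum_eq_zero fun a _ => ?_
  have h1 : ∀ b, tau (aeval (lam (M.G g) ((M.A g _ s).C a) b) P *
      ∏ i, psi (M.h _) ((M.A g _ s).C a) b i ^ ms.get i) = 0 := by
    intro b
    refine tau_of_hom (n := w + ms.sum) ?_ (by omega)
    refine (aeval_hom (fun k => chern_hom _ k b) hP).mul ?_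
    rw [← sum_get]
    exact IsHomogeneous.prod _ _ _ fun i _ => (chern_hom _ 1 b).pow _
  simp only [h1, mul_zero, integral_zero]

end Vale.Agent.P269CV

end
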