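import Vale.Agent.P269CV.K2
import Vale.Agent.P273.H768.OfCoord
import Vale.Agent.P273.H599.Glued

/-!
P269, block C: the projective line with three marked points is a smooth stable curve of genus zero.
-/

noncomputable section

namespace Vale.Agent.P269CV

open Set Filter Topology Asymptotics Vale.Agent.P269C Vale.Agent.P273.H183 Vale.Agent.P272.K
open Vale.Agent.P273.H837 (Coord Hol1 pt)
open Vale.Agent.P273SD (HolF)
open Sum

/-- The graph with one vertex and three legs. -/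
def c3 : Coord (fun _ : (Empty × Bool) ⊕ Fin 3 => ()) 0 where
  c := Sum.elim (fun y => y.1.elim) inl
  const _ i := ⟨inr i, ⟨rfl, rfl⟩, by
    rintro (y | y) ⟨-, h⟩
    · exact y.1.elim
    · exact congrArg inr (inl_injective h)⟩
  coord j := j.elim0

theorem c3_base (b : Cm 0) : b ∈ c3.base := by
  rintro (y | y) (y' | y') - h
  · exact y.1.elim
  · exact y.1.elim
  · exact y'.1.elim
  · congr 1
    revert h
    fin_cases y <;> fin_cases y' <;> simp [c3, pt]

theorem nf_zero {L : Type} (C : Fam L 0) (p : C.X) : nf C p = 𝓝 p := by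
  rw [nf, show C.fib (C.π p) = univ from eq_univ_of_forall fun _ => Subsingleton.elim _ _,
    nhdsWithin_univ]

theorem exists_line : ∃ (C : Fam (Fin 3) 0) (ν : OnePoint ℂ → C.X), C.IsStable ∧ C.B = univ ∧
    Continuous ν ∧ Function.Bijective ν ∧
    (∀ f (w : ℂ), C.hol f (ν w) ↔ AnalyticAt ℂ (fun u : ℂ => f (ν u)) w) ∧
    ∀ f, AnalyticAt ℂ (fun u : ℂ => f (ν (inf u))) 0 → C.hol f (ν OnePoint.infty) := by
  obtain ⟨C, g, h1, h2, h3, h4, h5, -, h7⟩ := P273.H768.exists_glued c3 (fun y => y.1.elim)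
    (fun _ _ => Relation.ReflTransGen.refl) inferInstance
  have hg : c3.IsGlued C := ⟨h2, g, h3, fun p _ => h4 p, h5⟩
  have e : ∀ z b, g () z b = g () z 0 := fun z b => by rw [Subsingleton.elim b 0]
  have hi : Function.Injective fun z => g () z 0 := fun z z' h => by
    rcases ((h5 0 (c3_base 0)).2.1 () z () z').1 h with h6 | ⟨y, -⟩
    · exact h6.2
    · exact y.elim
  refine ⟨C, fun z => g () z 0, h1.isStable fun b hb D hD p hp f hf =>
    P273.H599.glued_field_zero h1.2.2.2.2.1 hg hb hD p hp f hf,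
    h2.trans (eq_univ_of_forall c3_base), ?_, ⟨hi, fun p => ?_⟩, fun f w => ⟨fun hf => ?_,
      fun hf => (h7 f _).2 fun v z hz => ?_⟩, fun f hf => (h7 f _).2 fun v z hz => ?_⟩
  · exact continuousOn_univ.1 ((h3 ()).comp (f := fun z => (z, 0)) (by fun_prop)
      fun z _ => ⟨trivial, c3_base 0⟩)
  · obtain ⟨v, z, h⟩ := h4 p
    exact ⟨z, (e z _).symm.trans h⟩
  · exact AnalyticAt.comp_of_eq (f := fun u : ℂ => (u, (0 : Cm 0)))
      (((h5 0 (c3_base 0)).2.2.1 () w f hf).1 w rfl) (by fun_prop) rfl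
  · obtain rfl : z = w := hi ((e z _).symm.trans hz)
    refine ⟨fun w' hw => ?_, fun hw => absurd hw (OnePoint.coe_ne_infty w)⟩
    obtain rfl : w = w' := OnePoint.coe_injective hw
    simp only [e]
    exact AnalyticAt.comp_of_eq (g := fun u : ℂ => f (g () u 0)) hf analyticAt_fst rfl
  · obtain rfl : z = OnePoint.infty := hi ((e z _).symm.trans hz)
    refine ⟨fun w' hw => absurd hw (OnePoint.infty_ne_coe w'), fun _ => ?_⟩
    simp only [e]
    exact AnalyticAt.comp_of_eq (g := fun u : ℂ => f (g () (inf u) 0)) hf analyticAt_fst rfl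

theorem exists_g0 : ∃ C : Fam (Fin 3) 0, C.IsStable ∧ C.B = univ ∧ (∀ p, ∃ z, Co C z p) ∧
    Bas C 0 (Fin.elim0 : Fin 0 → Df C) := by
  obtain ⟨C, ν, hC, hB, hc, hb, h1, h2⟩ := exists_line
  have := hC.2.1
  obtain ⟨ζ, e1, e2⟩ : ∃ ζ : C.X → ℂ, (∀ w : ℂ, ζ (ν w) = w) ∧ ζ (ν OnePoint.infty) = 0 :=
    ⟨fun p => Option.getD (Function.surjInv hb.2 p : OnePoint ℂ) 0, fun w =>
      congrArg (fun z : OnePoint ℂ => Option.getD z 0) (Function.leftInverse_surjInv hb _),
      congrArg (fun z : OnePoint ℂ => Option.getD z 0) (Function.leftInverse_surjInv hb _)⟩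
  have e3 : ∀ u, (ζ (ν (inf u)))⁻¹ = u := fun u => by
    by_cases h : u = 0
    · simp [inf, h, e2]
    · simp [inf, h, e1]
  have cs : ∀ p, p ≠ ν OnePoint.infty → ∃ w : ℂ, p = ν w := fun p hp => by
    obtain ⟨z, rfl⟩ := hb.2 p
    induction z using OnePoint.rec with
    | infty => exact absurd rfl hp
    | coe w => exact ⟨w, rfl⟩
  have ne : ∀ w : ℂ, ν w ≠ ν OnePoint.infty := fun w h => OnePoint.coe_ne_infty w (hb.1 h)
  have c1 : ∀ w : ℂ, Co C ζ (ν w) := fun w => by
    refine ⟨co_hol ((h1 _ w).2 (by simp only [e1]; exact analyticAt_id)), {ν OnePoint.infty}ᶜ,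
      nf_zero C _ ▸ isOpen_compl_singleton.mem_nhds (ne w), fun a ha b hb e => ?_⟩
    obtain ⟨x, rfl⟩ := cs a ha
    obtain ⟨y, rfl⟩ := cs b hb
    rw [e1, e1] at e
    rw [e]
  have c2 : Co C (fun p => (ζ p)⁻¹) (ν OnePoint.infty) := by
    have k : ∀ p, p ≠ ν (0 : ℂ) → ν (inf (ζ p)⁻¹) = p := fun p hp => by
      by_cases h : p = ν OnePoint.infty
      · simp [h, e2, inf]
      · obtain ⟨x, rfl⟩ := cs p h
        have h3 : x ≠ 0 := fun h4 => hp (by rw [h4])
        simp [e1, inf, h3]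
    refine ⟨co_hol (h2 _ (by simp only [e3]; exact analyticAt_id)), {ν (0 : ℂ)}ᶜ,
      nf_zero C _ ▸ isOpen_compl_singleton.mem_nhds (ne 0).symm, fun a ha b hb e => ?_⟩
    rw [← k a ha, ← k b hb, show (ζ a)⁻¹ = (ζ b)⁻¹ from e]
  have hom : ∀ {η : Df C} p, Om C 0 η → Om C (C.π p) η := fun p h => by
    rwa [Subsingleton.elim (C.π p) 0]
  have ht : Tendsto (fun w : ℂ => ν w) (cocompact ℂ) (nf C (ν OnePoint.infty)) := by
    rw [nf_zero, ← coclosedCompact_eq_cocompact]
    exact (hc.tendsto _).comp OnePoint.tendsto_coe_infty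
  refine ⟨C, hC, hB, fun p => ?_, fun j => j.elim0, fun η hη => ⟨0, ?_, fun _ _ =>
    Subsingleton.elim _ _⟩⟩
  · by_cases h : p = ν OnePoint.infty
    · exact ⟨_, h ▸ c2⟩
    · obtain ⟨x, rfl⟩ := cs p h
      exact ⟨_, c1 x⟩
  have hF : Differentiable ℂ fun w : ℂ => η ζ (ν w) := fun w => by
    obtain ⟨k, hk, ek⟩ := om_fh hC (hom _ hη) (c1 w)
    rw [nf_zero] at ek
    exact ((h1 k w).1 hk).differentiableAt.congr_of_eventuallyEq
      (((hc.comp OnePoint.continuous_coe).tendsto w).eventually ek)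
  have hl : Tendsto (fun w : ℂ => η ζ (ν w)) (cocompact ℂ) (𝓝 0) := by
    have t1 := (fh_tendsto hC (om_fh hC (hom _ hη) c2)).comp ht
    have t2 := (fh_tendsto hC c2.1).comp ht
    have t3 := ((t2.pow 2).neg).mul t1
    simp only [e2, inv_zero, ne_eq, OfNat.ofNat_ne_zero, not_false_eq_true, zero_pow, neg_zero,
      zero_mul] at t3
    refine t3.congr' ?_
    filter_upwards [ht.eventually (co_ev hC c2),
      (isCompact_singleton (x := (0 : ℂ))).compl_mem_cocompact] with w a1 a2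
    have h3 : ζ (ν w) ≠ 0 := by rwa [e1]
    rw [(hη (ν w) (Subsingleton.elim _ _)).1 ζ _ _ (c1 w) a1
      (dr_of hC (c1 w) (hasDerivAt_inv h3) EventuallyEq.rfl)]
    simp only [Function.comp_apply, inv_pow]
  have h0 : ∀ w : ℂ, ∀ z, Co C z (ν w) → η z (ν w) = 0 := fun w z hz => by
    obtain ⟨c, hd⟩ := dr_exists hC hz (c1 w).1
    rw [(hη (ν w) (Subsingleton.elim _ _)).1 z ζ c hz (c1 w) hd,
      hF.apply_eq_of_tendsto_cocompact w hl, mul_zero]
  intro p _ z hz
  rw [Finset.univ_eq_empty, Finset.sum_empty]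
  by_cases h : p = ν OnePoint.infty
  · subst h
    refine tendsto_nhds_unique ((fh_tendsto hC (om_fh hC (hom _ hη) hz)).comp ht)
      (tendsto_const_nhds.congr' ?_)
    filter_upwards [ht.eventually (co_ev hC hz)] with w hw using (h0 w z hw).symm
  · obtain ⟨x, rfl⟩ := cs p h
    exact h0 x z hz

end Vale.Agent.P269CV

end
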