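import Vale.Agent.P269C.Spec2
import Vale.Agent.P269CV.P1
import Vale.Agent.P269CV.Alg

/-!
P269, block C, row V03: the moduli stack of three-pointed rational curves is a point.
-/

noncomputable section

namespace Vale.Agent.P269CV

open Set Filter Topology MeasureTheory Vale.Agent.P269C Vale.Agent.P273.H183 Vale.Agent.P272.K

/-- Smooth rational curves with three marked points are uniquely isomorphic. -/
def ISO0 : Prop := ∀ (C C' : Fam (Fin 3) 0), C.IsStable → C'.IsStable → (0 : Cm 0) ∈ C.B →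
  (0 : Cm 0) ∈ C'.B → Sm C 0 → Sm C' 0 → Bas C 0 (Fin.elim0 : Fin 0 → Df C) →
  Bas C' 0 (Fin.elim0 : Fin 0 → Df C') → ∃! Φ, Φ ∈ Iso C 0 C' 0

theorem sm_of_kur {L : Type} {C : Fam L 0} (h : Kur C) (b : Cm 0) : Sm C b := by
  intro p _ U x y t hc hU
  by_contra h0
  rw [not_or, not_not, not_not] at h0
  exact h.2.1 U x y t hc p hU h0.1 h0.2 (Subsingleton.elim _ _)

theorem int_zero (f : Cm 0 → ℂ) : ∫ b, f b = f 0 := by
  rw [show f = fun _ => f 0 from funext fun b => congrArg f (Subsingleton.elim _ _)]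
  simp [Measure.real, volume_pi, Measure.pi_univ]

theorem v03_of (h : ISO0) : V03 := by
  intro A
  obtain ⟨C, hC, hB, hs, he⟩ := exists_g0
  have h1 := A.one 0 C hC 0 (hB ▸ mem_univ _) ⟨_, he⟩
  have h2 : ∀ a, ∑ᶠ x, ((Iso C 0 (A.C a) x).ncard : ℝ) * A.ρ a x = A.ρ a 0 := fun a => by
    rw [finsum_eq_single _ (0 : Cm 0) fun x hx => absurd (Subsingleton.elim _ _) hx]
    by_cases h3 : A.ρ a 0 = 0
    · rw [h3, mul_zero]
    have h4 : (0 : Cm 0) ∈ (A.C a).B := (A.sm a).2.2 (subset_tsupport _ h3)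
    obtain ⟨e, h5⟩ := A.fr a 0 h4
    obtain ⟨Φ, h6, h7⟩ := h C (A.C a) hC (A.kur a).1 (hB ▸ mem_univ _) h4
      (fun p _ => let ⟨_, hz⟩ := hs p; (sp_iff hC).2 (co_sm hC hz)) (sm_of_kur (A.kur a) 0) he
      (Subsingleton.elim e Fin.elim0 ▸ h5.self_of_nhds.1)
    rw [eq_singleton_iff_unique_mem.2 ⟨h6, h7⟩, ncard_singleton, Nat.cast_one, one_mul]
  simp only [h2] at h1
  simp only [Atlas.int, int_zero, tau_one_zero, mul_one]
  exact_mod_cast h1

end Vale.Agent.P269CV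

end
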