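import Vale.Agent.P269CV.V03
import Vale.Agent.P269CS.Cls

/-!
P269, block C, row V03.
-/

namespace Vale.Agent.P269CV

theorem v03 : P269C.V03 :=
  v03_of fun _ _ hC hC' hb hb' hs hs' he he' => P269CS.iso0 hC hb hs hC' hb' hs' he he'

end Vale.Agent.P269CV
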